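import Crest.Agent.X262.Bl41.Core

/-!
# Row 262, L8-BL / L8-NU (helper41): the diagonal is a smooth centre; `blStmt`, `nuStmt`
-/

set_option autoImplicit false
set_option linter.unusedSectionVars false

open scoped KaehlerDifferential

noncomputable section

namespace Crest.Agent.X262.Bl41

open Crest.Agent.X277 Crest.Agent.X277.Lef Crest.Agent.X277.AN.G1
open Crest.Agent.X277.Res.Out (Coords)
open Crest.Agent.X277.Res.Log (crd_of_coords coords_of_crd van_iff_v v_coord)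
open Crest.Agent.X277.Cns (mk prod pfBasis)
open Crest.Agent.X262.Blow
open Crest.Agent.R274.Prod1_134 (IsPF)
open Crest.Agent.R274.Prod4_134 (pr pr_le)

variable {F L : Type} [Field F] [Algebra ℂ F] [Field L] [Algebra ℂ L] {α β : F →ₐ[ℂ] L}

theorem inI_iff {ι : Type} [Fintype ι] {O : Subalgebra ℂ L} {s : ι → L} {a : L} :
    InI O s a ↔ a ∈ Submodule.span O (Set.range s) := by
  rw [Submodule.mem_span_range_iff_exists_fun]
  exact ⟨fun ⟨r, hr, h⟩ => ⟨fun l => ⟨r l, hr l⟩, h.symm⟩,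
    fun ⟨r, h⟩ => ⟨fun l => r l, fun l => (r l).2, h.symm⟩⟩

variable (h : IsPF α β) {P : PModel ℂ F} {x x' : Pts P} {n : ℕ} {t : Fin n → F}

theorem ev_β (x : Pts P) {a : F} (ha : a ∈ (lp x').O) : ev (β a) (mk h x x') = ev a x' := by
  simpa [ev] using Cns.ev_mk h (one_mem (lp x).O) ha

theorem le_qD (x : Pts P) {f : L} (hf : f ∈ (lp (mk h x x)).O) :
    f ∈ (qD h).O ∧ (qD h).π f ∈ (lp x).O := by
  have h1 : (Cns.pair h (Cns.idM P) (Cns.idM P)).map x = mk h x x := by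
    rw [Cns.pair_map, Cns.idM_map]
  rw [← h1] at hf
  exact ⟨Mor.mem_O _ hf, Mor.π_mem _ hf⟩

theorem eq_of_le (hx : (lp (mk h x x')).O ≤ (qD h).O) : x = x' := by
  have key : ∀ a ∈ (lp x).O, ∀ b ∈ (lp x').O, ∀ a' ∈ (lp x).O, ∀ b' ∈ (lp x').O, a * b = a' * b' →
      ev a x * ev b x' = ev a' x * ev b' x' := by
    intro a ha b hb a' ha' b' hb' h0
    have h1 := ev_eq_zero hx (a := α a * β b - α a' * β b') (by
      rw [Plc.π_sub (hx (Cns.mem_mk h ha hb)) (hx (Cns.mem_mk h ha' hb')), π_αβ, π_αβ, h0, sub_self])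
    rwa [ev, LP.v_sub (Cns.mem_mk h ha hb) (Cns.mem_mk h ha' hb'), ← ev, ← ev, Cns.ev_mk h ha hb,
      Cns.ev_mk h ha' hb', sub_eq_zero] at h1
  obtain ⟨i, hi⟩ := exists_pat x
  obtain ⟨j, hj⟩ := exists_pat x'
  have h1 := key _ (y_mem hi j) _ (y_mem hj i) 1 (one_mem _) 1 (one_mem _) (by
    rw [div_mul_div_cancel₀ (P.y_ne i), div_self (P.y_ne j), mul_one])
  have h2 : x' ∈ pat P i := (mem_pat_iff hj).2 fun h3 => by simp [h3, ev] at h1
  refine pt_ext hi h2 fun k => ?_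
  simpa [ev] using key _ (y_mem hi k) 1 (one_mem _) 1 (one_mem _) _ (y_mem h2 k) (mul_comm _ _)

/-- Nakayama: the differences of the coordinates generate the ideal of the differences -/
theorem inI_crd (ht : Coords (lp x).O t) {c : F} (hc : c ∈ (lp x).O) :
    InI (lp (mk h x x)).O (fun l => α (t l) - β (t l)) (α c - β c) := by
  obtain ⟨i, hi⟩ := exists_pat x
  rw [inI_iff]
  refine Submodule.le_of_le_smul_of_le_jacobson_bot (I := IsLocalRing.maximalIdeal _)
    (Submodule.fg_span (Set.finite_range _)) (IsLocalRing.maximalIdeal_le_jacobson _)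
    (Submodule.span_le.2 ?_) (inI_iff.1 (inI_sub h hi hc))
  rintro _ ⟨k, rfl⟩
  obtain ⟨r, hr, h1⟩ := (crd_of_coords ht).gen _ (y_mem hi k)
  have h2 : α (P.y k / P.y i) - β (P.y k / P.y i) =
      ∑ l, α (r l) * (α (t l) - β (t l)) + ∑ l, β (t l) * (α (r l) - β (r l)) := by
    simp only [v_coord ht, map_zero, sub_zero] at h1
    rw [h1, map_add, map_add, AlgHom.commutes, AlgHom.commutes, add_sub_add_left_eq_sub, map_sum,
      map_sum, ← Finset.sum_sub_distrib, ← Finset.sum_add_distrib]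
    refine Finset.sum_congr rfl fun l _ => ?_
    rw [map_mul, map_mul]
    ring
  change α (P.y k / P.y i) - β (P.y k / P.y i) ∈ _
  rw [h2]
  refine Submodule.add_mem_sup (inI_iff.1 ⟨_, fun l => α_mem h (hr l) x, rfl⟩)
    (Submodule.sum_mem _ fun l _ => Submodule.smul_mem_smul
      (r := (⟨β (t l), β_mem h x (ht.mem l)⟩ : (lp (mk h x x)).O)) ?_ (inI_iff.1 (inI_sub h hi (hr l))))
  rw [IsLocalRing.mem_maximalIdeal, mem_nonunits_iff, LP.isUnit_iff, not_not]
  exact (ev_β h x (ht.mem l)).trans (v_coord ht l)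

theorem inI_π (ht : Coords (lp x).O t) {f : L} (hf : f ∈ (lp (mk h x x)).O) :
    InI (lp (mk h x x)).O (fun l => α (t l) - β (t l)) (f - α ((qD h).π f)) := by
  have h1 : (lp (mk h x x)).Of _ := Cns.lp_mk h x x ▸ Cns.lpP_of h
  rw [Cns.pr_eq_adjoin'] at h1
  have key : ∀ a ∈ Algebra.adjoin ℂ (α '' (lp x).O ∪ β '' (lp x).O),
      InI (lp (mk h x x)).O (fun l => α (t l) - β (t l)) (a - α ((qD h).π a)) := by
    intro a ha
    induction ha using Algebra.adjoin_induction with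
    | mem a ha =>
      rcases ha with ⟨c, -, rfl⟩ | ⟨c, hc, rfl⟩
      · rw [(π_α h c).2, sub_self]; exact InI.zero
      · rw [(π_β h c).2, ← neg_sub]; exact (inI_crd h ht hc).neg
    | algebraMap c => rw [(qD h).π_alg, AlgHom.commutes, sub_self]; exact InI.zero
    | add a b ha hb h2 h3 =>
      rw [(qD h).π_add (le_qD h x (h1.le ha)).1 (le_qD h x (h1.le hb)).1, map_add, add_sub_add_comm]
      exact h2.add h3
    | mul a b ha hb h2 h3 =>
      have h4 := (h2.mul_right (h1.le hb)).add (h3.mul_left (α_mem h (le_qD h x (h1.le ha)).2 x))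
      rw [(qD h).π_mul (le_qD h x (h1.le ha)).1 (le_qD h x (h1.le hb)).1, map_mul]
      convert h4 using 1
      ring
  obtain ⟨a, ha, b, hb, h0, h2⟩ := h1.loc f hf
  have h3 := ((key a ha).sub ((key b hb).mul_left (α_mem h (le_qD h x hf).2 x))).mul_right
    ((lp (mk h x x)).inv_mem h0)
  have h4 := LP.ne_zero_of_ne h0
  convert h3 using 1
  rw [← h2, (qD h).π_mul (le_qD h x hf).1 (le_qD h x (h1.le hb)).1, map_mul]
  field_simp
  ring

theorem coI_dia (ht : Coords (lp x).O t) : CoI (lp (mk h x x)).O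
    (Sum.elim (fun l => α (t l) - β (t l)) fun l => α (t l)) := by
  obtain ⟨b⟩ := basis_of_coords ht
  have hα : ∀ l, ev (α (t l)) (mk h x x) = 0 := fun l => (ev_α h (ht.mem l) x).trans (v_coord ht l)
  have hβ : ∀ l, ev (β (t l)) (mk h x x) = 0 := fun l => (ev_β h x (ht.mem l)).trans (v_coord ht l)
  have h1 : CoI (lp (mk h x x)).O (Sum.elim (fun l => α (t l)) fun l => β (t l)) := by
    have h2 := (coI_iff.2 (coords_of_crd (pfBasis h b b)
      (Cns.crd_mk h (crd_of_coords ht) (crd_of_coords ht)) fun l => by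
        refine Fin.addCases (fun l => ?_) (fun l => ?_) l
        · rw [Fin.append_left, hα]
        · rw [Fin.append_right, hβ])).reindex finSumFinEquiv
    convert h2 using 1
    funext l
    rcases l with l | l
    · exact (Fin.append_left (fun l => α (t l)) (fun l => β (t l)) l).symm
    · exact (Fin.append_right (fun l => α (t l)) (fun l => β (t l)) l).symm
  refine ⟨?_, fun f hf => (h1.gen f hf).trans ?_, ?_⟩
  · rintro (l | l)
    · refine van_iff_v.2 ⟨sub_mem (h1.mem (Sum.inl l)) (h1.mem (Sum.inr l)), ?_⟩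
      rw [Sum.elim_inl, LP.v_sub (α_mem h (ht.mem l) x) (β_mem h x (ht.mem l)), ← ev, ← ev, hα, hβ,
        sub_self]
    · exact h1.van (Sum.inl l)
  · rintro (l | l)
    · exact InI.self (s := Sum.elim (fun l => α (t l) - β (t l)) fun l => α (t l)) (Sum.inr l)
    · simpa using (InI.self (O := (lp (mk h x x)).O)
        (s := Sum.elim (fun l => α (t l) - β (t l)) fun l => α (t l)) (Sum.inr l)).sub
        (InI.self (Sum.inl l))
  · obtain ⟨d, h2, h3⟩ := h1.der
    have h4 : ∀ j l, d j (α (t l)) = if j = Sum.inl l then 1 else 0 := fun j l => h3 j (Sum.inl l)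
    have h5 : ∀ j l, d j (β (t l)) = if j = Sum.inr l then 1 else 0 := fun j l => h3 j (Sum.inr l)
    refine ⟨Sum.elim (fun l => -d (Sum.inr l)) fun l => d (Sum.inl l) + d (Sum.inr l), ?_, ?_⟩
    · rintro (l | l) f hf
      · exact neg_mem (h2 _ f hf)
      · exact add_mem (h2 _ f hf) (h2 _ f hf)
    · rintro (l | l) (j | j) <;> simp [h4, h5]

theorem ad_dia (ht : Coords (lp x).O t) :
    Ad (qD h) (mk h x x) (fun l => α (t l) - β (t l)) fun l => α (t l) where
  le _ hf := (le_qD h x hf).1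
  co := coI_dia h ht
  ker a ha := ⟨fun h0 => by simpa [h0] using inI_π h ht ha, fun h0 =>
    (h0.mono fun _ hf => (le_qD h x hf).1).π_eq (fun l => sub_mem (π_α h _).1 (π_β h _).1)
      fun l => by rw [Plc.π_sub (π_α h _).1 (π_β h _).1, (π_α h _).2, (π_β h _).2, sub_self]⟩

theorem exists_den (x : Pts P) {a : L} (ha : a ∈ pr α β ⊤ ⊤) :
    ∃ e ∈ (lp (mk h x x)).O, (qD h).π e ≠ 0 ∧ e * a ∈ (lp (mk h x x)).O := by
  rw [Cns.pr_eq_adjoin'] at ha
  induction ha using Algebra.adjoin_induction with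
  | mem a ha =>
    rcases ha with ⟨f, -, rfl⟩ | ⟨f, -, rfl⟩ <;> obtain ⟨a, ha, c, hc, h0, rfl⟩ := frac_lp x f
    · exact ⟨α c, α_mem h hc x, by rwa [(π_α h c).2], by
        rw [← map_mul, mul_div_cancel₀ _ h0]; exact α_mem h ha x⟩
    · exact ⟨β c, β_mem h x hc, by rwa [(π_β h c).2], by
        rw [← map_mul, mul_div_cancel₀ _ h0]; exact β_mem h x ha⟩
  | algebraMap c => exact ⟨1, one_mem _, by simp, mul_mem (one_mem _) (algebraMap_mem _ _)⟩
  | add a b _ _ h1 h2 =>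
    obtain ⟨e, he, h0, h3⟩ := h1
    obtain ⟨e', he', h0', h3'⟩ := h2
    refine ⟨e * e', mul_mem he he', ?_, ?_⟩
    · rw [(qD h).π_mul (le_qD h x he).1 (le_qD h x he').1]; exact mul_ne_zero h0 h0'
    · rw [mul_add, mul_comm e, mul_assoc, mul_comm e' e, mul_assoc]
      exact add_mem (mul_mem he' h3) (mul_mem he h3')
  | mul a b _ _ h1 h2 =>
    obtain ⟨e, he, h0, h3⟩ := h1
    obtain ⟨e', he', h0', h3'⟩ := h2
    refine ⟨e * e', mul_mem he he', ?_, mul_mul_mul_comm e a e' b ▸ mul_mem h3 h3'⟩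
    rw [(qD h).π_mul (le_qD h x he).1 (le_qD h x he').1]; exact mul_ne_zero h0 h0'

theorem loc_dia (x : Pts P) (f : L) (hf : f ∈ (qD h).O) : ∃ a ∈ (lp (mk h x x)).O,
    ∃ c ∈ (lp (mk h x x)).O, (qD h).π c ≠ 0 ∧ f * c = a := by
  obtain ⟨a, c, h0, h1⟩ := (mem_plcAt _).1 hf
  obtain ⟨e, he, h2, h3⟩ := exists_den h x a.2
  obtain ⟨e', he', h2', h3'⟩ := exists_den h x c.2
  refine ⟨_, mul_mem he' h3, _, mul_mem he h3', ?_, by rw [← h1]; ring⟩
  have h4 : (c : L) ∈ (qD h).O := le_plcAt _ c.2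
  rw [(qD h).π_mul (le_qD h x he).1 (le_qD h x h3').1, (qD h).π_mul (le_qD h x he').1 h4]
  exact mul_ne_zero h2 (mul_ne_zero h2' ((plcAt_π _ c).trans_ne h0))

/-- **the diagonal is a smooth centre** -/
theorem dia (P : PModel ℂ F) (b : Module.Basis (Fin n) F Ω[F⁄ℂ]) : Dia h P n := by
  obtain ⟨x₀⟩ : Nonempty (Pts P) := inferInstance
  refine ⟨fun x t => ad_dia h, fun x x' => ⟨eq_of_le h, ?_⟩, fun f => ⟨α f, π_α h f⟩,
    ⟨mk h x₀ x₀, fun _ hf => (le_qD h x₀ hf).1⟩,
    loc_of_one (fun _ hf => (le_qD h x₀ hf).1) (loc_dia h x₀), fun z hz => ?_⟩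
  · rintro rfl
    exact fun _ hf => (le_qD h x hf).1
  · rw [← Cns.mk_fst_snd h z] at hz ⊢
    rw [← eq_of_le h hz]
    obtain ⟨t, ht⟩ := exists_coords_of_basis b ((Cns.fst P P h).map z)
    exact ⟨_, _, ad_dia h ht⟩

/-- **L8-BL** -/
theorem blStmt : Lift8.BlStmt := fun _ _ _ _ _ _ _ _ h P b => (dia h P b).bl b

/-- **L8-NU** -/
theorem nuStmt : Lift8.NuStmt := fun _ _ _ _ _ _ _ _ h P b => (dia h P b).nu two_pos b

end Crest.Agent.X262.Bl41
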