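import Crest.Agent.X262.Blow.Exc
import Crest.Agent.X262.Lift8.Defs
import Crest.Agent.X277.Cns.Jac

/-!
# Row 262, L8-BL / L8-NU (helper41): the blow-up of the diagonal, from the local structure `Dia`

* `qD h`, `Dia h P n` : the place of the diagonal; the diagonal is a smooth centre;
* `at_dgl_off`, `at_dgl_on` : local generators of `dgl α β P.y`;
* `Dia.bl`, `Dia.nu`  : `Bl h P` and the order along the diagonal.
-/

set_option autoImplicit false
set_option linter.unusedSectionVars false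

open scoped KaehlerDifferential
open WithZero

noncomputable section

namespace Crest.Agent.X262.Bl41

open Crest.Agent.X277 Crest.Agent.X277.Lef Crest.Agent.X277.AN.G1 Crest.Agent.X277.BD
open Crest.Agent.X277.BD.Br (On oP kP At at_mxf at_kP at_y ext_at mem_Sec_of)
open Crest.Agent.X277.Res.Out (Coords)
open Crest.Agent.X277.Res.Log (crd_of_coords)
open Crest.Agent.X277.Cns (mk prod fst snd plcP pfBasis)
open Crest.Agent.X262.St91 (dgl wd)
open Crest.Agent.X262.Blow
open Crest.Agent.X262.Lift8 (chD Bl)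
open Crest.Agent.R274.Prod1_134 (IsPF)

variable {F L : Type} [Field F] [Algebra ℂ F] [Field L] [Algebra ℂ L] {α β : F →ₐ[ℂ] L}

/-! ### generators -/

section At

variable {P Q : PModel ℂ F} {x : Pts P} {y : Pts Q} {a : BD ℂ F} {g : F}

theorem at_of_le (h : At a x g) (hd : (lp x).O ≤ (lp y).O) : At a y g :=
  fun V hV => h V fun f hf => hV f (hd hf)

theorem at_mxf' {ι : Type*} [Fintype ι] {s : ι → F} (h : ∀ l, s l / g ∈ (lp x).O) {j : ι}
    (hj : ev (s j / g) x ≠ 0) : At (mxf ℂ s) x g := by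
  have h0 := LP.ne_zero_of_ne hj
  refine (at_mxf (j := j) (fun h1 => h0 (by rw [h1, zero_div])) fun l => ?_).of_ev hj
  rw [← div_div_div_cancel_right₀ (c := g) fun h1 => h0 (by rw [h1, div_zero])]
  exact LP.div_mem (h l) hj

end At

variable (h : IsPF α β) {P : PModel ℂ F} {x x' : Pts P}

theorem α_mem {a : F} (ha : a ∈ (lp x).O) (x' : Pts P) : α a ∈ (lp (mk h x x')).O := by
  simpa using Cns.mem_mk h ha (one_mem (lp x').O)

theorem β_mem (x : Pts P) {a : F} (ha : a ∈ (lp x').O) : β a ∈ (lp (mk h x x')).O := by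
  simpa using Cns.mem_mk h (one_mem (lp x).O) ha

theorem ev_α {a : F} (ha : a ∈ (lp x).O) (x' : Pts P) : ev (α a) (mk h x x') = ev a x := by
  simpa [ev] using Cns.ev_mk h ha (one_mem (lp x').O)

theorem at_α {a : BD ℂ F} {g : F} (hg : At a x g) (x' : Pts P) :
    At (pb α a) (mk h x x') (α g) :=
  At.pb (Cns.fst_p P P h) (by rwa [Cns.fst_mk])

theorem at_β (x : Pts P) {a : BD ℂ F} {g : F} (hg : At a x' g) :
    At (pb β a) (mk h x x') (β g) :=
  At.pb (Cns.snd_p P P h) (by rwa [Cns.snd_mk])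

theorem wd_div (i j : Fin (P.N + 1)) (k : Fin (P.N + 1) × Fin (P.N + 1)) :
    wd (fun i => α (P.y i)) (fun i => β (P.y i)) k / (α (P.y i) * β (P.y j)) =
      α (P.y k.1 / P.y i) * β (P.y k.2 / P.y j) - α (P.y k.2 / P.y i) * β (P.y k.1 / P.y j) := by
  simp only [wd, map_div₀, div_mul_div_comm, sub_div]

/-- the class of the diagonal is trivial off the diagonal -/
theorem at_dgl_off (hx : x ≠ x') : At (dgl α β P.y) (mk h x x') 1 := by
  have key : ∀ i j, x ∈ pat P i → x' ∈ pat P j → ∀ k l, ev (P.y k / P.y i) x * ev (P.y l / P.y j) x'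
      ≠ ev (P.y l / P.y i) x * ev (P.y k / P.y j) x' → At (dgl α β P.y) (mk h x x') 1 := by
    intro i j hi hj k l h0
    have h1 := ((at_α h (at_y hi) x').add (at_β h x (at_y hj))).sub
      (at_mxf' (s := wd (fun i => α (P.y i)) fun i => β (P.y i)) (g := α (P.y i) * β (P.y j))
        (j := (k, l)) (fun m => by
          rw [wd_div]
          exact sub_mem (Cns.mem_mk h (y_mem hi _) (y_mem hj _))
            (Cns.mem_mk h (y_mem hi _) (y_mem hj _))) (by
          rw [wd_div, ev, LP.v_sub (Cns.mem_mk h (y_mem hi _) (y_mem hj _))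
            (Cns.mem_mk h (y_mem hi _) (y_mem hj _)), ← ev, ← ev,
            Cns.ev_mk h (y_mem hi _) (y_mem hj _), Cns.ev_mk h (y_mem hi _) (y_mem hj _)]
          exact sub_ne_zero.2 h0))
    rwa [div_self (mul_ne_zero ((map_ne_zero α).2 (P.y_ne i)) ((map_ne_zero β).2 (P.y_ne j)))]
      at h1
  have h1 : ∀ (i) (x : Pts P), ev (P.y i / P.y i) x = 1 := fun i x => by
    rw [div_self (P.y_ne i), ev, LP.v_one]
  obtain ⟨i, hi⟩ := exists_pat x
  by_cases hi' : x' ∈ pat P i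
  · obtain ⟨k, hk⟩ := not_forall.1 (mt (pt_ext hi hi') hx)
    exact key i i hi hi' k i (by rwa [h1, h1, mul_one, one_mul])
  · obtain ⟨j, hj⟩ := exists_pat x'
    rw [mem_pat_iff hj, not_not] at hi'
    exact key i j hi hj i j (by rw [h1, h1, hi', mul_zero, mul_one]; exact one_ne_zero)

/-- the differences of local functions are in the ideal of the differences of the affine
coordinates -/
theorem inI_sub {i : Fin (P.N + 1)} (hi : x ∈ pat P i) {c : F} (hc : c ∈ (lp x).O) :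
    InI (lp (mk h x x)).O (fun k => α (P.y k / P.y i) - β (P.y k / P.y i)) (α c - β c) := by
  have key : ∀ a ∈ P.A i, InI (lp (mk h x x)).O
      (fun k => α (P.y k / P.y i) - β (P.y k / P.y i)) (α a - β a) := by
    intro a ha
    induction ha using Algebra.adjoin_induction with
    | mem a ha =>
      obtain ⟨k, rfl⟩ := ha
      exact InI.self (s := fun k => α (P.y k / P.y i) - β (P.y k / P.y i)) k
    | algebraMap c => rw [AlgHom.commutes, AlgHom.commutes, sub_self]; exact InI.zero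
    | add a b _ _ h1 h2 => rw [map_add, map_add, add_sub_add_comm]; exact h1.add h2
    | mul a b ha hb h1 h2 =>
      have h3 := (h1.mul_right (β_mem h x (A_le hi hb))).add (h2.mul_left (α_mem h (A_le hi ha) x))
      rw [map_mul, map_mul]
      convert h3 using 1
      ring
  obtain ⟨a, ha, b, hb, h0, h1⟩ := (mem_lp_iff hi).1 hc
  have h2 : ev (α b) (mk h x x) ≠ 0 := by rwa [ev_α h (A_le hi hb)]
  have h3 := ((key a ha).sub ((key b hb).mul_left (β_mem h x hc))).mul_right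
    ((lp (mk h x x)).inv_mem h2)
  have h4 := LP.ne_zero_of_ne h2
  convert h3 using 1
  rw [← h1, map_mul, map_mul]
  field_simp
  ring

/-- the place of the diagonal -/
abbrev qD : Plc L F := plcP h (Plc.ofHom (AlgHom.id ℂ F)) (Plc.ofHom (AlgHom.id ℂ F))

theorem π_αβ (a b : F) : (qD h).π (α a * β b) = a * b :=
  (Cns.plcP_mul h Algebra.mem_top Algebra.mem_top).2

theorem π_α (a : F) : α a ∈ (qD h).O ∧ (qD h).π (α a) = a := Cns.plcP_left h _ Algebra.mem_top

theorem π_β (a : F) : β a ∈ (qD h).O ∧ (qD h).π (β a) = a := Cns.plcP_right h _ Algebra.mem_top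

variable {n : ℕ} {s w : Fin n → L} {l : Fin n} {Y : PModel ℂ L} {y : Pts Y}

theorem inI_s (ha : Ad (qD h) (mk h x x) s w) {c : F} (hc : c ∈ (lp x).O) :
    InI (lp (mk h x x)).O s (α c - β c) :=
  (ha.ker _ (sub_mem (α_mem h hc x) (β_mem h x hc))).1 (by
    rw [Plc.π_sub (π_α h c).1 (π_β h c).1, (π_α h c).2, (π_β h c).2, sub_self])

theorem sub_div_mem {M : LP L} (ha : Ad (qD h) (mk h x x) s w) (ho : Over (lp (mk h x x)) M s l)
    {c : F} (hc : c ∈ (lp x).O) : (α c - β c) / s l ∈ M.O :=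
  ((inI_s h ha hc).mono ho.dom.le).div_mem ho.mem

/-- the class of the diagonal on the exceptional divisor -/
theorem at_dgl_on (ha : Ad (qD h) (mk h x x) s w) (ho : Over (lp (mk h x x)) (lp y) s l) {t : F}
    (ht : t ∈ (lp x).O) (hs : s l = α t - β t) : At (dgl α β P.y) y (s l)⁻¹ := by
  obtain ⟨i, hi⟩ := exists_pat x
  have h0 := mul_ne_zero ((map_ne_zero α).2 (P.y_ne i)) ((map_ne_zero β).2 (P.y_ne i))
  obtain ⟨k, hk⟩ := ((inI_sub h hi ht).mono ho.dom.le).exists_ne (b := s l)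
    (fun k => sub_div_mem h ha ho (y_mem hi k)) (by
      rw [← hs, div_self (ha.s_ne l), LP.v_one]; exact one_ne_zero)
  have h1 := (at_of_le ((at_α h (at_y hi) x).add (at_β h x (at_y hi))) ho.dom.le).sub
    (at_mxf' (s := wd (fun i => α (P.y i)) fun i => β (P.y i))
      (g := α (P.y i) * β (P.y i) * s l) (j := (k, i)) (fun m => ?_) ?_)
  · rwa [← div_div, div_self h0, one_div] at h1
  · have h2 := (sub_mem (mul_mem (sub_div_mem h ha ho (y_mem hi m.1))
      (ho.dom.le (β_mem h x (y_mem hi m.2)))) (mul_mem (sub_div_mem h ha ho (y_mem hi m.2))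
      (ho.dom.le (β_mem h x (y_mem hi m.1)))))
    rw [← div_div, wd_div]
    convert h2 using 1
    ring
  · rwa [← div_div, wd_div, div_self (P.y_ne i), map_one, map_one, mul_one, one_mul]

/-- the chart of the blow-up in terms of the two copies of the local ring -/
theorem of_chD {M : LP L} (ha : Ad (qD h) (mk h x x) s w) (ho : Over (lp (mk h x x)) M s l)
    {t : Fin n → F} (ht : ∀ a, t a ∈ (lp x).O) (hs : ∀ a, s a = α (t a) - β (t a)) :
    M.Of (chD α β (lp x).O (s l)) := by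
  have hB : chD α β (lp x).O (s l) ≤ M.O := by
    refine Algebra.adjoin_le ?_
    rintro _ ((⟨c, hc, rfl⟩ | ⟨c, hc, rfl⟩) | ⟨c, hc, rfl⟩)
    exacts [ho.dom.le (α_mem h hc x), ho.dom.le (β_mem h x hc), sub_div_mem h ha ho hc]
  refine of_of_le ho.of hB (chB_le (fun f hf => ?_) fun a => le_lpAt _ ?_)
  · have h1 : (lp (mk h x x)).Of _ := Cns.lp_mk h x x ▸ Cns.lpP_of h
    rw [Cns.pr_eq_adjoin'] at h1
    obtain ⟨a, ha', c, hc, h0, h2⟩ := h1.loc f hf
    have h3 : Algebra.adjoin ℂ (α '' (lp x).O ∪ β '' (lp x).O) ≤ chD α β (lp x).O (s l) :=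
      Algebra.adjoin_mono Set.subset_union_left
    rw [← mul_div_cancel_right₀ f (LP.ne_zero_of_ne h0), h2]
    exact div_mem_resV hB (h3 ha') (h3 hc) (by rwa [ho.dom.eq c (h1.le hc)])
  · exact Algebra.subset_adjoin (Or.inr ⟨t a, ht a, by rw [hs a]⟩)

/-! ### the canonical divisor -/

theorem kP_prod {m : ℕ} (b : Module.Basis (Fin m) F Ω[F⁄ℂ]) :
    kP (prod P P h) (pfBasis h b b) = pb α (kP P b) + pb β (kP P b) := by
  refine ext_at (P := prod P P h) fun z => ?_
  rw [← Cns.mk_fst_snd h z]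
  obtain ⟨t, ht⟩ := exists_crd b ((fst P P h).map z)
  obtain ⟨t', ht'⟩ := exists_crd b ((snd P P h).map z)
  refine ⟨_, at_kP _ (Cns.crd_mk h ht ht'), ?_⟩
  rw [Cns.jac_pf]
  exact (at_α h (at_kP b ht) _).add (at_β h _ (at_kP b ht'))

theorem jac_bs {d : ℕ} (b : Module.Basis (Fin (2 + d)) L Ω[L⁄ℂ]) (M : LP L) {s : Fin 2 → L}
    (w : Fin d → L) {l : Fin 2} (h0 : s l ≠ 0) :
    jac b (fun k => Sum.elim s w (finSumFinEquiv.symm k)) =
      s l * jac b (fun k => Sum.elim (bs M s l) w (finSumFinEquiv.symm k)) := by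
  obtain ⟨l', h1, h2⟩ := (by decide : ∀ l : Fin 2, ∃ l', l' ≠ l ∧ ∀ a, a ≠ l → a = l') l
  let D := KaehlerDifferential.D ℂ L
  let v : Fin (2 + d) → Ω[L⁄ℂ] := fun k => D (Sum.elim (bs M s l) w (finSumFinEquiv.symm k))
  have h3 : v (finSumFinEquiv (Sum.inl l)) = D (s l) := by simp [v, bs_self]
  have h4 : v (finSumFinEquiv (Sum.inl l')) = D (s l' / s l) := by
    simp only [v, Equiv.symm_apply_apply, Sum.elim_inl, bs_ne h1, map_sub,
      Derivation.map_algebraMap, sub_zero]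
  have h5 : (fun k => D (Sum.elim s w (finSumFinEquiv.symm k))) =
      Function.update v (finSumFinEquiv (Sum.inl l')) (s l • v (finSumFinEquiv (Sum.inl l')) +
        (s l' / s l) • v (finSumFinEquiv (Sum.inl l))) := by
    funext k
    obtain ⟨k, rfl⟩ := finSumFinEquiv.surjective k
    by_cases hk : k = Sum.inl l'
    · rw [hk, Function.update_self, h3, h4, ← Derivation.leibniz, mul_div_cancel₀ _ h0,
        Equiv.symm_apply_apply, Sum.elim_inl]
    · rw [Function.update_of_ne (finSumFinEquiv.injective.ne hk)]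
      rcases k with a | a
      · have h6 : a = l := by
          by_contra h6
          exact hk (congrArg _ (h2 a h6))
        rw [h6, h3, Equiv.symm_apply_apply, Sum.elim_inl]
      · simp only [v, Equiv.symm_apply_apply, Sum.elim_inr]
  change b.det _ = _ * b.det v
  rw [h5, AlternatingMap.map_update_add, AlternatingMap.map_update_smul,
    AlternatingMap.map_update_smul, Function.update_eq_self,
    AlternatingMap.map_update_self b.det v
      (finSumFinEquiv.injective.ne (Sum.inl_injective.ne h1)), smul_zero, add_zero, smul_eq_mul]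

/-! ### the blow-up -/

variable (P n) in
/-- the diagonal is a smooth centre with equations `α t - β t` -/
structure Dia : Prop where
  ad : ∀ (x : Pts P) (t : Fin n → F), Coords (lp x).O t →
    Ad (qD h) (Cns.mk h x x) (fun l => α (t l) - β (t l)) fun l => α (t l)
  le : ∀ x x' : Pts P, (lp (Cns.mk h x x')).O ≤ (qD h).O ↔ x = x'
  smc : SmC (prod P P h) (qD h) n n

variable {h}

section Pt

variable {G : Gens (prod P P h) (qD h)} {hS : SmC (prod P P h) (qD h) n n}

/-- the first projection -/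
def pp (y : Pts (G.bl hS)) : Pts P := (fst P P h).map ((G.r hS).map y)

/-- the second projection -/
def qq (y : Pts (G.bl hS)) : Pts P := (snd P P h).map ((G.r hS).map y)

theorem mk_pq (y : Pts (G.bl hS)) : Cns.mk h (pp y) (qq y) = (G.r hS).map y := Cns.mk_fst_snd h _

theorem dom_pq (y : Pts (G.bl hS)) : (lp (Cns.mk h (pp y) (qq y))).Dom (lp y) :=
  mk_pq y ▸ Gens.r_dom y

theorem Dia.off (D : Dia h P n) {y : Pts (G.bl hS)} (hy : pp y ≠ qq y) :
    lp y = lp (Cns.mk h (pp y) (qq y)) := by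
  rw [mk_pq]
  exact (Gens.lp_off (by rwa [← mk_pq, D.le])).symm

theorem Dia.on (D : Dia h P n) (b : Module.Basis (Fin n) F Ω[F⁄ℂ]) {y : Pts (G.bl hS)}
    (hy : pp y = qq y) : ∃ (t : Fin n → F) (l : Fin n), Coords (lp (pp y)).O t ∧
      Ad (qD h) (Cns.mk h (pp y) (pp y)) (fun l => α (t l) - β (t l)) (fun l => α (t l)) ∧
      Over (lp (Cns.mk h (pp y) (pp y))) (lp y) (fun l => α (t l) - β (t l)) l := by
  obtain ⟨t, ht⟩ := exists_coords_of_basis b (pp y)
  have h1 : Cns.mk h (pp y) (pp y) = (G.r hS).map y := by rw [← mk_pq, ← hy]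
  have h2 := D.ad _ t ht
  obtain ⟨l, hl⟩ := Gens.exists_chart (h1 ▸ h2)
  exact ⟨t, l, ht, h2, h1 ▸ hl⟩

end Pt

/-- **the blow-up of the diagonal** -/
theorem Dia.bl (D : Dia h P 2) (b₀ : Module.Basis (Fin 2) F Ω[F⁄ℂ]) :
    ∃ B : Bl h P, B.Can := by
  obtain ⟨G⟩ := D.smc.exists_gens two_pos
  refine ⟨⟨G.bl D.smc, pp, qq, dom_pq, fun y => D.off, fun x x' hx => ?_, fun y hy => ?_⟩,
    fun b => ⟨pfBasis h b b, 1, one_ne_zero, ?_⟩⟩
  · obtain ⟨y, -, hy⟩ := Gens.exists_off (G := G) (h := D.smc) (mt (D.le x x').1 hx)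
    exact ⟨y, by rw [pp, hy, Cns.fst_mk], by rw [qq, hy, Cns.snd_mk]⟩
  · obtain ⟨t, l, ht, ha, ho⟩ := D.on b₀ hy
    have h1 := of_chD h ha ho ht.mem fun _ => rfl
    exact ⟨t l, ht.mem l, ha.s_ne l, h1⟩
  · rw [pr_one, add_zero, ← kP_prod h b]
    refine ext_at (P := G.bl D.smc) fun y => ?_
    by_cases hy : pp y = qq y
    · obtain ⟨t, l, ht, ha, ho⟩ := D.on b hy
      refine ⟨_, at_kP _ (crd_of_coords ((ho.coI ha.co).coords finSumFinEquiv.symm)), ?_⟩
      have h1 := (at_of_le (at_kP (pfBasis h b b)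
        (crd_of_coords (ha.co.coords finSumFinEquiv.symm))) ho.dom.le).add
        (at_dgl_on h ha ho (ht.mem l) rfl)
      rwa [jac_bs _ (lp y) _ (ha.s_ne l), mul_comm, inv_mul_cancel_left₀ (ha.s_ne l)] at h1
    · obtain ⟨z, hz⟩ := exists_crd (pfBasis h b b) (Cns.mk h (pp y) (qq y))
      refine ⟨_, at_kP _ (D.off hy ▸ hz), ?_⟩
      simpa using at_of_le ((at_kP _ hz).add (at_dgl_off h hy)) (dom_pq y).le

/-- **the order along the diagonal** -/
theorem Dia.nu (D : Dia h P n) (hn : 0 < n) (b : Module.Basis (Fin n) F Ω[F⁄ℂ]) :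
    ∃ ν : Valuation L ℤᵐ⁰, (∀ f, f ≠ 0 → ν (α f) = 1) ∧ (∀ f, f ≠ 0 → ν (β f) = 1) ∧
      (∀ (j : ℕ) (f : L), (∀ V : RZ ℂ L, (∀ g, α g ∈ V.1) → (∀ g, β g ∈ V.1) →
        V.v f ≤ (-(j • dgl α β P.y)).val V) → ν f ≤ exp (-(j : ℤ))) ∧
      ∀ a ∈ On P, ∀ (j : ℕ), ∀ σ ∈ (pb α a + pb β a).Sec, ν σ ≤ exp (-(j : ℤ)) →
        σ ∈ (pb α a + pb β a - j • dgl α β P.y).Sec := by
  obtain ⟨G⟩ := D.smc.exists_gens hn
  obtain ⟨ν, hν⟩ := D.smc.exists_ord hn
  have hα : ∀ f, f ≠ 0 → ν (α f) = 1 := fun f hf => hν.eq_one (by rwa [(π_α h f).2])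
  have hβ : ∀ f, f ≠ 0 → ν (β f) = 1 := fun f hf => hν.eq_one (by rwa [(π_β h f).2])
  refine ⟨ν, hα, hβ, fun j f hf => ?_, fun a ha j σ hσ hj => ?_⟩
  · obtain ⟨y, hy⟩ := hν.exists_on_bl G D.smc hn
    obtain ⟨t, l, ht, ha, ho⟩ := D.on b ((D.le _ _).1 (mk_pq y ▸ hν.on_bl.1 hy))
    have h1 := hf (rz ν hν.triv) (fun g => hν.le_one (π_α h g).1) fun g => hν.le_one (π_β h g).1
    rw [← ((at_dgl_on h ha ho (ht.mem l) rfl).nsmul j).neg (rz ν hν.triv) hy, v_rz_le_iff,
      inv_pow, inv_inv, Link.v_pow_unif (hν.eqn_over ha ho).val] at h1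
    exact h1
  · refine mem_Sec_of (P := G.bl D.smc) fun y => ?_
    obtain ⟨g, hg⟩ := ha (pp y)
    obtain ⟨g', hg'⟩ := ha (qq y)
    have h1 := at_of_le ((at_α h hg _).add (at_β h _ hg')) (dom_pq y).le
    by_cases hy : pp y = qq y
    · obtain ⟨t, l, ht, ha, ho⟩ := D.on b hy
      refine ⟨_, h1.sub ((at_dgl_on h ha ho (ht.mem l) rfl).nsmul j), ?_⟩
      have h2 := (hν.eqn_over ha ho).div_pow j _ (h1.div_mem hσ) (by
        rwa [map_div₀, map_mul, hα g hg.ne, hβ g' hg'.ne, mul_one, div_one])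
      rwa [inv_pow, div_inv_eq_mul, ← div_div]
    · refine ⟨_, h1.sub ((at_of_le (at_dgl_off h hy) (dom_pq y).le).nsmul j), ?_⟩
      rw [one_pow, div_one]
      exact h1.div_mem hσ

end Crest.Agent.X262.Bl41
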